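import Mathlib.Analysis.Matrix.Spectrum
import Mathlib.Analysis.Matrix.PosDef
import Mathlib.LinearAlgebra.Matrix.PosDef
import Mathlib.Analysis.SpecialFunctions.Pow.Real
import Mathlib.Algebra.Order.Star.Real

/-!
# P141, line (A): the mass of the flow term (`s = 1 / 2`), finite dimensional matrix statements

Node data: Gram matrix `G`, half difference `D`, square roots `K² = l + G`, `Kp² = l + (G + D)`,
`Km² = l + (G - D)`; `Kb = (Kp + Km) / 2`, `dK = (Kp - Km) / 2`.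

* `sub_posSemidef_of_sq` : `A² ≤ B²` gives `A ≤ B`;
* `Nd.sq_eq` : `K² = Kb² + dK²`;
* `Nd.mass` : `l tr (K⁻¹ dK K⁻¹ G K⁻¹ dK K⁻¹) ≤ 2 √l (tr K - tr Kb)`;
* `Nd.mass_avg` : the same as the average of `|r|²`, `r = √l K⁻¹ dK K⁻¹ u`, `G` the average of
  `u ⊗ u`;
* `tree_mass` : on the dyadic tree below a cell the sum is at most `tr G` of the top.
-/

namespace Vale.Agent.P141.H420

open Matrix Finset

noncomputable section

theorem tr_symm {ι : Type*} {A : Matrix ι ι ℝ} (hA : A.IsHermitian) : Aᵀ = A := by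
  have := hA.eq
  simpa [conjTranspose_eq_transpose_of_trivial] using this

variable {ι : Type*} [Fintype ι]

theorem quad_nonneg {A : Matrix ι ι ℝ} (hA : A.PosSemidef) (x : ι → ℝ) : 0 ≤ x ⬝ᵥ A *ᵥ x := by
  simpa using hA.dotProduct_mulVec_nonneg x

/-- the form of a product of a symmetric matrix with itself -/
theorem quad_sq {A : Matrix ι ι ℝ} (hA : A.IsHermitian) (x : ι → ℝ) :
    x ⬝ᵥ (A * A) *ᵥ x = (A *ᵥ x) ⬝ᵥ (A *ᵥ x) := by
  rw [← mulVec_mulVec, dotProduct_mulVec, ← mulVec_transpose, tr_symm hA]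

/-- `A² ≤ B²` gives `A ≤ B` -/
theorem sub_posSemidef_of_sq [DecidableEq ι] {A B : Matrix ι ι ℝ} (hA : A.PosSemidef)
    (hB : B.PosDef) (h : (B * B - A * A).PosSemidef) : (B - A).PosSemidef := by
  have hH : (B - A).IsHermitian := hB.isHermitian.sub hA.isHermitian
  rw [hH.posSemidef_iff_eigenvalues_nonneg]
  intro i
  by_contra hneg
  simp only [Pi.zero_apply, not_le] at hneg
  set m := hH.eigenvalues i with hm
  set x : ι → ℝ := (hH.eigenvectorBasis i).ofLp with hxdef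
  have hx : (B - A) *ᵥ x = m • x := hH.mulVec_eigenvectorBasis i
  have hx0 : x ≠ 0 := by
    intro h0
    have h1 := (hH.eigenvectorBasis.orthonormal).ne_zero i
    apply h1
    ext j
    have := congrFun h0 j
    simpa [hxdef] using this
  have hBx : B *ᵥ x = A *ᵥ x + m • x := by
    rw [← hx, sub_mulVec]; abel
  have h1 := quad_nonneg h x
  rw [sub_mulVec, dotProduct_sub, quad_sq hB.isHermitian, quad_sq hA.isHermitian, hBx] at h1
  have h2 : 0 < x ⬝ᵥ B *ᵥ x := by simpa using hB.dotProduct_mulVec_pos hx0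
  have h3 : 0 ≤ x ⬝ᵥ A *ᵥ x := quad_nonneg hA x
  rw [hBx, dotProduct_add, dotProduct_smul, smul_eq_mul] at h2
  have h4 : (A *ᵥ x + m • x) ⬝ᵥ (A *ᵥ x + m • x) - A *ᵥ x ⬝ᵥ A *ᵥ x =
      m * (x ⬝ᵥ A *ᵥ x + (x ⬝ᵥ A *ᵥ x + m * (x ⬝ᵥ x))) := by
    simp only [dotProduct_add, add_dotProduct, dotProduct_smul, smul_dotProduct, smul_eq_mul]
    rw [dotProduct_comm (A *ᵥ x) x]
    ring
  rw [h4] at h1
  have h5 : 0 < x ⬝ᵥ A *ᵥ x + (x ⬝ᵥ A *ᵥ x + m * (x ⬝ᵥ x)) := by linarith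
  have h6 := mul_neg_of_neg_of_pos hneg h5
  linarith

/-- the trace of a product of two positive semidefinite matrices -/
theorem trace_mul_nonneg {A B : Matrix ι ι ℝ} (hA : A.PosSemidef) (hB : B.PosSemidef) :
    0 ≤ (A * B).trace := by
  classical
  -- spectral decomposition of `B`
  have hs := hB.isHermitian.spectral_theorem
  rw [Unitary.conjStarAlgAut_apply] at hs
  set U : Matrix ι ι ℝ := (hB.isHermitian.eigenvectorUnitary : Matrix ι ι ℝ) with hU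
  have hBe : B = U * diagonal (hB.isHermitian.eigenvalues) * Uᵀ := by
    simpa [star_eq_conjTranspose, conjTranspose_eq_transpose_of_trivial, Function.comp_def, hU]
      using hs
  have h1 : (A * B).trace = ∑ i, (Uᵀ * A * U) i i * hB.isHermitian.eigenvalues i := by
    conv_lhs => rw [hBe]
    rw [← Matrix.mul_assoc, trace_mul_comm, ← Matrix.mul_assoc, ← Matrix.mul_assoc]
    simp only [trace, diag_apply, mul_diagonal]
  rw [h1]
  refine sum_nonneg fun i _ => mul_nonneg ?_ (hB.eigenvalues_nonneg i)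
  have h2 : (Uᵀ * A * U).PosSemidef := by
    have := hA.conjTranspose_mul_mul_same U
    simpa [conjTranspose_eq_transpose_of_trivial] using this
  exact h2.diag_nonneg

variable [DecidableEq ι]

/-- **node data** -/
structure Nd (l : ℝ) (G D K Kp Km : Matrix ι ι ℝ) : Prop where
  l_pos : 0 < l
  psG : G.PosSemidef
  pdK : K.PosDef
  pdp : Kp.PosDef
  pdm : Km.PosDef
  sq : K * K = l • (1 : Matrix ι ι ℝ) + G
  sqp : Kp * Kp = l • (1 : Matrix ι ι ℝ) + (G + D)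
  sqm : Km * Km = l • (1 : Matrix ι ι ℝ) + (G - D)

section inv

variable {l : ℝ} {G K : Matrix ι ι ℝ}

theorem inv_mul_self' (hK : K.PosDef) : K⁻¹ * K = 1 :=
  nonsing_inv_mul _ hK.det_pos.ne'.isUnit

theorem mul_inv_self' (hK : K.PosDef) : K * K⁻¹ = 1 :=
  mul_nonsing_inv _ hK.det_pos.ne'.isUnit

/-- `K⁻¹ G K⁻¹ = 1 - l K⁻²` -/
theorem inv_G_inv (hK : K.PosDef) (h : K * K = l • (1 : Matrix ι ι ℝ) + G) :
    K⁻¹ * G * K⁻¹ = 1 - l • (K⁻¹ * K⁻¹) := by
  have hG : G = K * K - l • (1 : Matrix ι ι ℝ) := by rw [h]; abel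
  rw [hG, Matrix.mul_sub, Matrix.sub_mul, ← Matrix.mul_assoc, inv_mul_self' hK, Matrix.one_mul,
    mul_inv_self' hK]
  simp

/-- `√l ≤ K` -/
theorem sqrt_le_K (hl : 0 < l) (hG : G.PosSemidef) (hK : K.PosDef)
    (h : K * K = l • (1 : Matrix ι ι ℝ) + G) : (K - √l • (1 : Matrix ι ι ℝ)).PosSemidef := by
  refine sub_posSemidef_of_sq (PosSemidef.one.smul (Real.sqrt_nonneg l)) hK ?_
  have h1 : (√l • (1 : Matrix ι ι ℝ)) * (√l • (1 : Matrix ι ι ℝ)) = l • 1 := by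
    rw [smul_mul_smul_comm, Real.mul_self_sqrt hl.le, Matrix.one_mul]
  rw [h, h1, add_sub_cancel_left]
  exact hG

/-- `K⁻¹ ≤ (√l)⁻¹` -/
theorem inv_le (hl : 0 < l) (hG : G.PosSemidef) (hK : K.PosDef)
    (h : K * K = l • (1 : Matrix ι ι ℝ) + G) :
    ((√l)⁻¹ • (1 : Matrix ι ι ℝ) - K⁻¹).PosSemidef := by
  have hs : 0 < √l := Real.sqrt_pos.2 hl
  refine sub_posSemidef_of_sq hK.inv.posSemidef (PosDef.one.smul (inv_pos.2 hs)) ?_
  have h1 : ((√l)⁻¹ • (1 : Matrix ι ι ℝ)) * ((√l)⁻¹ • (1 : Matrix ι ι ℝ)) = l⁻¹ • 1 := by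
    rw [smul_mul_smul_comm, ← mul_inv, Real.mul_self_sqrt hl.le, Matrix.one_mul]
  have h2 : l⁻¹ • (1 : Matrix ι ι ℝ) - K⁻¹ * K⁻¹ = l⁻¹ • (K⁻¹ * G * K⁻¹) := by
    rw [inv_G_inv hK h, smul_sub, smul_smul, inv_mul_cancel₀ hl.ne', one_smul]
  rw [h1, h2]
  refine PosSemidef.smul ?_ (inv_pos.2 hl).le
  have h3 := hG.conjTranspose_mul_mul_same (K⁻¹)
  rwa [hK.inv.isHermitian.eq] at h3

end inv

namespace Nd

variable {l : ℝ} {G D K Kp Km : Matrix ι ι ℝ} (h : Nd l G D K Kp Km)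

/-- the mean of the square roots of the children -/
abbrev Kb (Kp Km : Matrix ι ι ℝ) : Matrix ι ι ℝ := (1 / 2 : ℝ) • (Kp + Km)

/-- the half difference of the square roots of the children -/
abbrev dK (Kp Km : Matrix ι ι ℝ) : Matrix ι ι ℝ := (1 / 2 : ℝ) • (Kp - Km)

include h

/-- `K² = Kb² + dK²` -/
theorem sq_eq : K * K = Kb Kp Km * Kb Kp Km + dK Kp Km * dK Kp Km := by
  have h1 : Kp * Kp + Km * Km = (2 : ℝ) • (K * K) := by
    rw [h.sqp, h.sqm, h.sq, two_smul]; abel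
  have h2 : Kb Kp Km * Kb Kp Km + dK Kp Km * dK Kp Km =
      (1 / 2 : ℝ) • (Kp * Kp + Km * Km) := by
    simp only [Kb, dK, smul_mul_smul_comm, Matrix.mul_add, Matrix.add_mul, Matrix.mul_sub,
      Matrix.sub_mul, ← smul_add]
    have : Kp * Kp + Km * Kp + (Kp * Km + Km * Km) + (Kp * Kp - Km * Kp - (Kp * Km - Km * Km)) =
        (2 : ℝ) • (Kp * Kp + Km * Km) := by rw [two_smul]; abel
    rw [this, smul_smul]
    norm_num
  rw [h2, h1, smul_smul]
  norm_num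

theorem pdb : (Kb Kp Km).PosDef := (h.pdp.add h.pdm).smul (by norm_num)

theorem herm_dK : (dK Kp Km).IsHermitian := by
  have h1 := h.pdp.isHermitian.sub h.pdm.isHermitian
  show ((1 / 2 : ℝ) • (Kp - Km))ᴴ = (1 / 2 : ℝ) • (Kp - Km)
  rw [conjTranspose_smul, h1.eq]
  simp

/-- `Kb ≤ K` -/
theorem Kb_le : (K - Kb Kp Km).PosSemidef := by
  refine sub_posSemidef_of_sq h.pdb.posSemidef h.pdK ?_
  rw [h.sq_eq, add_sub_cancel_left]
  have := posSemidef_self_mul_conjTranspose (dK Kp Km)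
  rwa [h.herm_dK.eq] at this

/-- **the mass of the flow term at one node** -/
theorem mass : l * (K⁻¹ * dK Kp Km * K⁻¹ * G * K⁻¹ * dK Kp Km * K⁻¹).trace ≤
    2 * √l * (K.trace - (Kb Kp Km).trace) := by
  have hl := h.l_pos
  have hs : 0 < √l := Real.sqrt_pos.2 hl
  have hKi := h.pdK.inv.isHermitian
  have hd := h.herm_dK
  set d := dK Kp Km with hdd
  set B := Kb Kp Km with hB
  set T := K - B with hT
  have hTps : T.PosSemidef := h.Kb_le
  -- drop `K⁻¹ G K⁻¹ ≤ 1`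
  have e1 : (K⁻¹ * d * (K⁻¹ * K⁻¹) * d * K⁻¹).PosSemidef := by
    have h1 := posSemidef_self_mul_conjTranspose (K⁻¹ * d * K⁻¹)
    have h2 : (K⁻¹ * d * K⁻¹)ᴴ = K⁻¹ * d * K⁻¹ := by
      rw [conjTranspose_mul, conjTranspose_mul, hKi.eq, hd.eq, Matrix.mul_assoc]
    rw [h2] at h1
    simpa only [Matrix.mul_assoc] using h1
  have e2 : K⁻¹ * d * K⁻¹ * G * K⁻¹ * d * K⁻¹ =
      K⁻¹ * (d * d) * K⁻¹ - l • (K⁻¹ * d * (K⁻¹ * K⁻¹) * d * K⁻¹) := by
    have h1 : K⁻¹ * d * K⁻¹ * G * K⁻¹ * d * K⁻¹ = K⁻¹ * d * (K⁻¹ * G * K⁻¹) * d * K⁻¹ := by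
      simp only [Matrix.mul_assoc]
    rw [h1, inv_G_inv h.pdK h.sq]
    simp only [Matrix.mul_sub, Matrix.sub_mul, Matrix.mul_one, Matrix.mul_smul, Matrix.smul_mul,
      Matrix.mul_assoc]
  have e3 : (K⁻¹ * d * K⁻¹ * G * K⁻¹ * d * K⁻¹).trace ≤ (K⁻¹ * (d * d) * K⁻¹).trace := by
    rw [e2, trace_sub, trace_smul, smul_eq_mul]
    have := mul_nonneg hl.le e1.trace_nonneg
    linarith
  -- `dK² = K² - Kb² = K T + T K - T²`
  have e4 : d * d = K * T + T * K - T * T := by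
    have h1 := h.sq_eq
    rw [← hdd, ← hB] at h1
    have h2 : B = K - T := by rw [hT]; abel
    have h3 : d * d = K * K - B * B := by rw [h1]; abel
    rw [h3, h2]
    simp only [Matrix.mul_sub, Matrix.sub_mul]
    abel
  have e5 : (K⁻¹ * (d * d) * K⁻¹).trace ≤ 2 * (K⁻¹ * T).trace := by
    have h1 : K⁻¹ * (K * T + T * K - T * T) * K⁻¹ = T * K⁻¹ + K⁻¹ * T - K⁻¹ * T * (T * K⁻¹) := by
      simp only [Matrix.mul_sub, Matrix.sub_mul, Matrix.mul_add, Matrix.add_mul]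
      have h2 : K⁻¹ * (K * T) * K⁻¹ = T * K⁻¹ := by
        rw [← Matrix.mul_assoc K⁻¹ K T, inv_mul_self' h.pdK, Matrix.one_mul]
      have h3 : K⁻¹ * (T * K) * K⁻¹ = K⁻¹ * T := by
        rw [Matrix.mul_assoc, Matrix.mul_assoc, mul_inv_self' h.pdK, Matrix.mul_one]
      rw [h2, h3]
      simp only [Matrix.mul_assoc]
    have h4 : (K⁻¹ * T * (T * K⁻¹)).PosSemidef := by
      have h5 := posSemidef_self_mul_conjTranspose (K⁻¹ * T)
      rwa [conjTranspose_mul, hKi.eq, hTps.isHermitian.eq] at h5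
    rw [e4, h1, trace_sub, trace_add, trace_mul_comm T K⁻¹]
    have := h4.trace_nonneg
    linarith
  -- `K⁻¹ ≤ (√l)⁻¹`
  have e6 : (K⁻¹ * T).trace ≤ (√l)⁻¹ * T.trace := by
    have h1 := trace_mul_nonneg (inv_le hl h.psG h.pdK h.sq) hTps
    rw [Matrix.sub_mul, Matrix.smul_mul, Matrix.one_mul, trace_sub, trace_smul,
      smul_eq_mul] at h1
    linarith
  have e7 : T.trace = K.trace - B.trace := by rw [hT, trace_sub]
  have e8 : l * (2 * ((√l)⁻¹ * T.trace)) = 2 * √l * (K.trace - B.trace) := by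
    rw [e7]
    have h1 : l * (√l)⁻¹ = √l := by
      rw [← div_eq_mul_inv, Real.div_sqrt]
    calc l * (2 * ((√l)⁻¹ * (K.trace - B.trace)))
        = 2 * (l * (√l)⁻¹) * (K.trace - B.trace) := by ring
      _ = _ := by rw [h1]
  calc l * (K⁻¹ * d * K⁻¹ * G * K⁻¹ * d * K⁻¹).trace
      ≤ l * (2 * ((√l)⁻¹ * T.trace)) := by
        refine mul_le_mul_of_nonneg_left ?_ hl.le
        linarith
    _ = _ := e8

end Nd

omit [DecidableEq ι] in
/-- averages of squares of the images of a family with Gram matrix `G` -/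
theorem avg_sq {X : Type*} (s : Finset X) (c : ℝ) (u : X → ι → ℝ) (G R : Matrix ι ι ℝ)
    (hG : G = c • ∑ x ∈ s, vecMulVec (u x) (u x)) :
    c * ∑ x ∈ s, (R *ᵥ u x) ⬝ᵥ (R *ᵥ u x) = (R * G * Rᵀ).trace := by
  have h1 : ∀ x, (R *ᵥ u x) ⬝ᵥ (R *ᵥ u x) = (R * vecMulVec (u x) (u x) * Rᵀ).trace := by
    intro x
    rw [mul_vecMulVec, vecMulVec_mul, vecMul_transpose]
    simp [trace, vecMulVec_apply, dotProduct]
  rw [hG, Matrix.mul_smul, Matrix.smul_mul, trace_smul, smul_eq_mul, Matrix.mul_sum,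
    Matrix.sum_mul, trace_sum]
  simp only [h1]

/-- **the average of `|r|²`, `r = √l K⁻¹ dK K⁻¹ u`** -/
theorem Nd.mass_avg {l : ℝ} {G D K Kp Km : Matrix ι ι ℝ} (h : Nd l G D K Kp Km) {X : Type*}
    (s : Finset X) (c : ℝ) (u : X → ι → ℝ) (hG : G = c • ∑ x ∈ s, vecMulVec (u x) (u x)) :
    c * ∑ x ∈ s, ((√l • (K⁻¹ * Nd.dK Kp Km * K⁻¹)) *ᵥ u x) ⬝ᵥ
      ((√l • (K⁻¹ * Nd.dK Kp Km * K⁻¹)) *ᵥ u x) ≤
    2 * √l * (K.trace - (Nd.Kb Kp Km).trace) := by
  refine le_trans (le_of_eq ?_) h.mass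
  rw [avg_sq s c u G _ hG]
  have hKi := tr_symm h.pdK.inv.isHermitian
  have hd := tr_symm h.herm_dK
  rw [transpose_smul, transpose_mul, transpose_mul, hKi, hd, Matrix.smul_mul, Matrix.smul_mul,
    Matrix.mul_smul, smul_smul, Real.mul_self_sqrt h.l_pos.le, trace_smul, smul_eq_mul]
  simp only [Matrix.mul_assoc]

/-! ### The dyadic tree: scale `k`, index `m`, children `(k, 2 m)`, `(k, 2 m + 1)` of `(k + 1, m)` -/

/-- the normalised sum over the cells of the scales `1, ..., k` below the cell `(k, m)` -/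
def tsum (f : ℕ → ℤ → ℝ) : ℕ → ℤ → ℝ
  | 0, _ => 0
  | (k + 1), m => f (k + 1) m + (1 / 2) * (tsum f k (2 * m) + tsum f k (2 * m + 1))

/-- explicit form of `tsum` -/
theorem tsum_eq (f : ℕ → ℤ → ℝ) (k : ℕ) (m : ℤ) :
    tsum f k m = ∑ j ∈ Icc 1 k, (2 ^ (k - j) : ℝ)⁻¹ *
      ∑ i ∈ Ico (2 ^ (k - j) * m) (2 ^ (k - j) * m + 2 ^ (k - j)), f j i := by
  induction k generalizing m with
  | zero => simp [tsum]
  | succ k ih =>
    rw [tsum, ih, ih, sum_Icc_succ_top (by omega : 1 ≤ k + 1)]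
    have h0 : (2 ^ (k + 1 - (k + 1)) : ℝ)⁻¹ *
        ∑ i ∈ Ico ((2 : ℤ) ^ (k + 1 - (k + 1)) * m) (2 ^ (k + 1 - (k + 1)) * m + 2 ^ (k + 1 - (k + 1))),
          f (k + 1) i = f (k + 1) m := by
      have h1 : Ico m (m + 1) = {m} := by ext y; simp only [mem_Ico, mem_singleton]; omega
      simp [h1]
    rw [h0, add_comm (f (k + 1) m)]
    congr 1
    rw [← sum_add_distrib, mul_sum]
    refine sum_congr rfl fun j hj => ?_
    have hjk : j ≤ k := (mem_Icc.1 hj).2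
    have e1 : k + 1 - j = (k - j) + 1 := by omega
    rw [e1, ← mul_add]
    set a := k - j with ha
    have e2 : Ico ((2 : ℤ) ^ (a + 1) * m) (2 ^ (a + 1) * m + 2 ^ (a + 1)) =
        Ico (2 ^ a * (2 * m)) (2 ^ a * (2 * m) + 2 ^ a) ∪
          Ico (2 ^ a * (2 * m + 1)) (2 ^ a * (2 * m + 1) + 2 ^ a) := by
      have p : (0 : ℤ) < 2 ^ a := by positivity
      rw [pow_succ]
      ext y
      simp only [mem_union, mem_Ico]
      constructor
      · rintro ⟨h1, h2⟩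
        by_cases hy : y < 2 ^ a * (2 * m) + 2 ^ a
        · left; constructor <;> nlinarith
        · right; constructor <;> nlinarith
      · rintro (⟨h1, h2⟩ | ⟨h1, h2⟩) <;> constructor <;> nlinarith
    have e3 : Disjoint (Ico ((2 : ℤ) ^ a * (2 * m)) (2 ^ a * (2 * m) + 2 ^ a))
        (Ico (2 ^ a * (2 * m + 1)) (2 ^ a * (2 * m + 1) + 2 ^ a)) := by
      rw [disjoint_left]
      intro y h1 h2
      rw [mem_Ico] at h1 h2
      nlinarith [h1.2, h2.1]
    rw [e2, sum_union e3, pow_succ, mul_inv]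
    ring

/-- a telescoping bound -/
theorem tsum_le {f F : ℕ → ℤ → ℝ} {b : ℝ} {n : ℕ}
    (hf : ∀ k < n, ∀ m, f (k + 1) m ≤ F (k + 1) m - (1 / 2) * (F k (2 * m) + F k (2 * m + 1)))
    (hb : ∀ m, b ≤ F 0 m) : ∀ k ≤ n, ∀ m, tsum f k m ≤ F k m - b := by
  intro k
  induction k with
  | zero => intro _ m; rw [tsum]; linarith [hb m]
  | succ k ih =>
    intro hk m
    have h1 := hf k (by omega) m
    have h2 := ih (by omega) (2 * m)
    have h3 := ih (by omega) (2 * m + 1)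
    rw [tsum]
    linarith

/-- the data of a tree: Gram matrices `G k m` = means over the children, square roots `K k m` -/
structure Tr (l : ℝ) (n : ℕ) (G K : ℕ → ℤ → Matrix ι ι ℝ) : Prop where
  l_pos : 0 < l
  psG : ∀ k m, (G k m).PosSemidef
  pdK : ∀ k m, (K k m).PosDef
  sq : ∀ k m, K k m * K k m = l • (1 : Matrix ι ι ℝ) + G k m
  mean : ∀ k < n, ∀ m, G (k + 1) m = (1 / 2 : ℝ) • (G k (2 * m) + G k (2 * m + 1))

/-- the node data of a tree -/
theorem Tr.nd {l : ℝ} {n : ℕ} {G K : ℕ → ℤ → Matrix ι ι ℝ} (h : Tr l n G K) {k : ℕ} (hk : k < n)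
    (m : ℤ) : Nd l (G (k + 1) m) ((1 / 2 : ℝ) • (G k (2 * m) - G k (2 * m + 1))) (K (k + 1) m)
      (K k (2 * m)) (K k (2 * m + 1)) := by
  have e1 : (1 / 2 : ℝ) • (G k (2 * m) + G k (2 * m + 1)) +
      (1 / 2 : ℝ) • (G k (2 * m) - G k (2 * m + 1)) = G k (2 * m) := by
    rw [← smul_add, add_add_sub_cancel, ← two_smul ℝ (G k (2 * m)), smul_smul]
    norm_num
  have e2 : (1 / 2 : ℝ) • (G k (2 * m) + G k (2 * m + 1)) -
      (1 / 2 : ℝ) • (G k (2 * m) - G k (2 * m + 1)) = G k (2 * m + 1) := by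
    rw [← smul_sub, add_sub_sub_cancel, ← two_smul ℝ (G k (2 * m + 1)), smul_smul]
    norm_num
  exact ⟨h.l_pos, h.psG _ _, h.pdK _ _, h.pdK _ _, h.pdK _ _, h.sq _ _,
    by rw [h.mean k hk m, e1]; exact h.sq _ _, by rw [h.mean k hk m, e2]; exact h.sq _ _⟩

/-- `√l tr 1 ≤ tr K` -/
theorem sqrt_card_le {l : ℝ} {G K : Matrix ι ι ℝ} (hl : 0 < l) (hG : G.PosSemidef)
    (hK : K.PosDef) (h : K * K = l • (1 : Matrix ι ι ℝ) + G) :
    √l * (Fintype.card ι : ℝ) ≤ K.trace := by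
  have h1 := (sqrt_le_K hl hG hK h).trace_nonneg
  rw [trace_sub, trace_smul, trace_one, smul_eq_mul] at h1
  linarith

/-- `tr K ≤ √l tr 1 + tr G / (2 √l)` -/
theorem trace_K_le {l : ℝ} {G K : Matrix ι ι ℝ} (hl : 0 < l)
    (hK : K.PosDef) (h : K * K = l • (1 : Matrix ι ι ℝ) + G) :
    2 * √l * (K.trace - √l * (Fintype.card ι : ℝ)) ≤ G.trace := by
  have hs : √l * √l = l := Real.mul_self_sqrt hl.le
  have h1 : ((K - √l • (1 : Matrix ι ι ℝ)) * (K - √l • (1 : Matrix ι ι ℝ))).PosSemidef := by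
    have h2 := posSemidef_self_mul_conjTranspose (K - √l • (1 : Matrix ι ι ℝ))
    have h3 : (K - √l • (1 : Matrix ι ι ℝ))ᴴ = K - √l • (1 : Matrix ι ι ℝ) := by
      rw [conjTranspose_sub, hK.isHermitian.eq, conjTranspose_smul, conjTranspose_one]
      simp
    rwa [h3] at h2
  have h4 : (K - √l • (1 : Matrix ι ι ℝ)) * (K - √l • (1 : Matrix ι ι ℝ)) =
      (l • (1 : Matrix ι ι ℝ) + G) - (2 * √l) • K + l • 1 := by
    rw [Matrix.mul_sub, Matrix.sub_mul, Matrix.sub_mul, Matrix.mul_smul, Matrix.mul_one,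
      Matrix.smul_mul, Matrix.one_mul, smul_mul_smul_comm, hs, Matrix.one_mul, h, two_mul,
      add_smul]
    abel
  have h5 := h1.trace_nonneg
  rw [h4, trace_add, trace_sub, trace_add, trace_smul, trace_smul, trace_one] at h5
  simp only [smul_eq_mul] at h5
  nlinarith [h5, hs]

/-- **the mass of the flow term on the tree below a cell** -/
theorem tree_mass {l : ℝ} {n : ℕ} {G K : ℕ → ℤ → Matrix ι ι ℝ} (h : Tr l n G K) {k : ℕ}
    (hk : k ≤ n) (m : ℤ) :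
    tsum (fun j i => l * ((K j i)⁻¹ * Nd.dK (K (j - 1) (2 * i)) (K (j - 1) (2 * i + 1)) *
      (K j i)⁻¹ * G j i * (K j i)⁻¹ * Nd.dK (K (j - 1) (2 * i)) (K (j - 1) (2 * i + 1)) *
      (K j i)⁻¹).trace) k m ≤ (G k m).trace := by
  have key := tsum_le (f := fun j i => l * ((K j i)⁻¹ *
      Nd.dK (K (j - 1) (2 * i)) (K (j - 1) (2 * i + 1)) *
      (K j i)⁻¹ * G j i * (K j i)⁻¹ * Nd.dK (K (j - 1) (2 * i)) (K (j - 1) (2 * i + 1)) *
      (K j i)⁻¹).trace) (F := fun j i => 2 * √l * (K j i).trace)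
    (b := 2 * √l * (√l * (Fintype.card ι : ℝ))) (n := n) (fun j hj i => ?_) (fun i => ?_) k hk m
  · refine key.trans ?_
    have h1 := trace_K_le h.l_pos (h.pdK k m) (h.sq k m)
    linarith
  · have h1 := (h.nd hj i).mass
    have h2 : (Nd.Kb (K j (2 * i)) (K j (2 * i + 1))).trace =
        (1 / 2) * ((K j (2 * i)).trace + (K j (2 * i + 1)).trace) := by
      rw [trace_smul, trace_add, smul_eq_mul]
    rw [h2] at h1
    simp only [Nat.add_sub_cancel]
    linarith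
  · have h1 := sqrt_card_le h.l_pos (h.psG 0 i) (h.pdK 0 i) (h.sq 0 i)
    have h2 : 0 ≤ 2 * √l := by positivity
    exact mul_le_mul_of_nonneg_left h1 h2

end

end Vale.Agent.P141.H420
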